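import Vale.Agent.P021.Num.Main

/-!
Rational approximations of π whose numerator is divisible by a large power of two.
-/

open scoped Real

namespace Vale.Agent.Results.P021.TwoPartNumerators

theorem result :
    (∀ η : ℝ, 0 ≤ η → η ≤ 21 / 50 →
      ∃ Q : ℕ, ∀ (p : ℤ) (q v : ℕ), Q ≤ q → (2 : ℤ) ^ v ∣ p → (q : ℝ) ^ η ≤ 2 ^ v →
        (q : ℝ) ^ (-(431 / 50 * (1 - η))) ≤ |π - (p : ℝ) / q|) ∧
    (∃ Q : ℕ, ∀ q k : ℕ, Q ≤ q → (q : ℝ) ^ (-5 : ℝ) ≤ |π - (2 : ℝ) ^ k / q|) :=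
  ⟨_root_.Vale.Agent.P021.Num.approx_two_part, _root_.Vale.Agent.P021.Num.approx_pow_two⟩

end Vale.Agent.Results.P021.TwoPartNumerators
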